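import Vale.Agent.P141.H508.OwnC

/-!
# P141, line (A): own energies of a slot on a set with small columns

`sq_col` : the square energy of labelled vectors `b = φ • w` on a square, `φ` with line energies
`A` in the second variable, `w` of size `ω`, columns of `ω` at most `B`.
`ownK_col` : own energies at exact `x0` are at most `e * col` times the square energies.
`famK_D` : the slot `C = fC v (kF Λ a K F)` with `v = 0` off a set `D` whose columns in the alive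
squares are at most `col`, own energies summed over `x0` at most `8 Λ (cP + 2) ez² col s 8 ^ K`.
Only the line energies of the slot in the second variable are used, no cap.
-/

namespace Vale.Agent.P141.H194

open Finset Matrix
open Vale.Agent.P141.PL (Pt iv ix mem_iv ix_ix cx)
open Vale.Agent.P141.PL.H315 (A2)
open Vale.Agent.P141.H958 (Aff mem_Aff)
open Vale.Agent.P141.H48 (Qth sst BSl ES)
open Vale.Agent.P141.H677 (kF fC)
open Vale.Agent.P141.H205 (FamK ownK pwrK GQ tr_GQ_sq)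
open Vale.Agent.P141.H508 (root_mem famK_C famK_Cs famK_Cls)

noncomputable section

open scoped Classical

/-- the trace of the square of a Gram matrix from both sides -/
theorem sq_swap {α β : Type*} (P : Finset α) (Y : Finset β) (f : α → β → ℝ) :
    ∑ y ∈ Y, ∑ y' ∈ Y, (∑ p ∈ P, f p y * f p y') ^ 2 =
      ∑ p ∈ P, ∑ q ∈ P, (∑ y ∈ Y, f p y * f q y) ^ 2 := by
  have h1 : ∀ y y' : β, (∑ p ∈ P, f p y * f p y') ^ 2 =
      ∑ p ∈ P, ∑ q ∈ P, (f p y * f q y) * (f p y' * f q y') := by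
    intro y y'
    rw [sq, sum_mul_sum]
    exact sum_congr rfl fun p _ => sum_congr rfl fun q _ => by ring
  have h2 : ∀ p q : α, (∑ y ∈ Y, f p y * f q y) ^ 2 =
      ∑ y ∈ Y, ∑ y' ∈ Y, (f p y * f q y) * (f p y' * f q y') := by
    intro p q
    rw [sq, sum_mul_sum]
  simp only [h1, h2]
  have h3 : ∀ y ∈ Y, ∑ y' ∈ Y, ∑ p ∈ P, ∑ q ∈ P, (f p y * f q y) * (f p y' * f q y') =
      ∑ p ∈ P, ∑ q ∈ P, ∑ y' ∈ Y, (f p y * f q y) * (f p y' * f q y') := by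
    intro y _
    rw [sum_comm]
    exact sum_congr rfl fun p _ => sum_comm
  rw [sum_congr rfl h3, sum_comm]
  exact sum_congr rfl fun p _ => sum_comm

variable {κ : Type*} [Fintype κ]

/-- **Square energy on a set with small columns.** -/
theorem sq_col (X Y : Finset ℤ) (φ : ℤ → ℤ → ℝ) (w b : ℤ → ℤ → κ → ℝ)
    (hb : ∀ x ∈ X, ∀ y ∈ Y, b x y = φ x y • w x y) {A B : ℝ} (hA : 0 ≤ A)
    (hφ : ∀ x ∈ X, ∑ y ∈ Y, φ x y ^ 2 ≤ A) (ω : ℤ → ℤ → ℝ)
    (hw : ∀ x ∈ X, ∀ y ∈ Y, w x y ⬝ᵥ w x y ≤ ω x y)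
    (hω : ∀ y ∈ Y, ∑ x ∈ X, ω x y ≤ B) :
    ∑ y ∈ Y, ∑ y' ∈ Y, (∑ x ∈ X, b x y ⬝ᵥ b x y') ^ 2 ≤
      A * B * ∑ x ∈ X, ∑ y ∈ Y, b x y ⬝ᵥ b x y := by
  have e1 : ∀ y y' : ℤ, ∑ x ∈ X, b x y ⬝ᵥ b x y' =
      ∑ p ∈ X ×ˢ (univ : Finset κ), b p.1 y p.2 * b p.1 y' p.2 := by
    intro y y'
    rw [sum_product]
    rfl
  simp only [e1]
  rw [sq_swap (X ×ˢ (univ : Finset κ)) Y (fun p y => b p.1 y p.2)]
  have one : ∀ (c : ℤ → ℝ), ∀ x ∈ X, ∑ l : κ, (∑ y ∈ Y, b x y l * c y) ^ 2 ≤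
      A * ∑ y ∈ Y, ω x y * c y ^ 2 := by
    intro c x hx
    have h1 : ∀ l : κ, (∑ y ∈ Y, b x y l * c y) ^ 2 ≤ A * ∑ y ∈ Y, (w x y l * w x y l) * c y ^ 2 := by
      intro l
      have e2 : ∑ y ∈ Y, b x y l * c y = ∑ y ∈ Y, φ x y * (w x y l * c y) := by
        refine sum_congr rfl fun y hy => ?_
        rw [hb x hx y hy, Pi.smul_apply, smul_eq_mul, mul_assoc]
      rw [e2]
      refine (sum_mul_sq_le_sq_mul_sq Y _ _).trans ?_
      have e3 : ∑ y ∈ Y, (w x y l * c y) ^ 2 = ∑ y ∈ Y, (w x y l * w x y l) * c y ^ 2 :=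
        sum_congr rfl fun y _ => by ring
      rw [e3]
      refine mul_le_mul_of_nonneg_right (hφ x hx) (sum_nonneg fun y _ => ?_)
      exact mul_nonneg (mul_self_nonneg _) (sq_nonneg _)
    refine (sum_le_sum fun l _ => h1 l).trans ?_
    rw [← mul_sum]
    refine mul_le_mul_of_nonneg_left ?_ hA
    rw [sum_comm]
    refine sum_le_sum fun y hy => ?_
    rw [← sum_mul]
    exact mul_le_mul_of_nonneg_right (hw x hx y hy) (sq_nonneg _)
  have key : ∀ q ∈ X ×ˢ (univ : Finset κ),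
      ∑ p ∈ X ×ˢ (univ : Finset κ), (∑ y ∈ Y, b p.1 y p.2 * b q.1 y q.2) ^ 2 ≤
        A * B * ∑ y ∈ Y, b q.1 y q.2 * b q.1 y q.2 := by
    intro q _
    rw [sum_product]
    refine (sum_le_sum fun x hx => one (fun y => b q.1 y q.2) x hx).trans ?_
    rw [← mul_sum, mul_assoc]
    refine mul_le_mul_of_nonneg_left ?_ hA
    rw [sum_comm, mul_sum]
    refine sum_le_sum fun y hy => ?_
    rw [← sum_mul, ← sq]
    exact mul_le_mul_of_nonneg_right (hω y hy) (sq_nonneg _)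
  rw [sum_comm]
  refine (sum_le_sum key).trans (le_of_eq ?_)
  rw [← mul_sum, sum_product]
  congr 1
  refine sum_congr rfl fun x _ => ?_
  rw [sum_comm]
  rfl

/-- **Own energies at exact `x0`** from line energies and columns. -/
theorem ownK_col {N : ℕ} {R S : ℤ} {Q : ℕ → ℤ → ℤ → Prop} {b : ℕ → ℤ → ℤ → κ → ℝ}
    (φ : ℕ → ℤ → ℤ → ℝ) (w : ℕ → ℤ → ℤ → κ → ℝ) (ω : ℕ → ℤ → ℤ → ℝ) {e col : ℝ} (he : 0 ≤ e)
    (hb : ∀ k < N, ∀ n ∈ iv (N - k) R, ∀ m ∈ iv (N - k) S, ∀ x ∈ iv k n, ∀ y ∈ iv k m,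
      b (k + 1) x y = φ (k + 1) x y • w (k + 1) x y)
    (hφ : ∀ k < N, ∀ n ∈ iv (N - k) R, ∀ m ∈ iv (N - k) S, ∀ x ∈ iv k n,
      ∑ y ∈ iv k m, φ (k + 1) x y ^ 2 ≤ e * 2 ^ k)
    (hw : ∀ k < N, ∀ n ∈ iv (N - k) R, ∀ m ∈ iv (N - k) S, ∀ x ∈ iv k n, ∀ y ∈ iv k m,
      w (k + 1) x y ⬝ᵥ w (k + 1) x y ≤ ω k x y)
    (hω : ∀ k < N, ∀ n ∈ iv (N - k) R, ∀ m ∈ iv (N - k) S, ∀ y ∈ iv k m,
      ∑ x ∈ iv k n, ω k x y ≤ col * 2 ^ k) :
    ownK N R S Q b ≤ e * col * pwrK N R S Q b := by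
  unfold ownK pwrK
  rw [mul_sum]
  refine sum_le_sum fun i hi => ?_
  rw [mem_Aff] at hi
  obtain ⟨hk, hn, hm, -⟩ := hi
  rw [tr_GQ_sq]
  have h1 := sq_col (iv i.1 i.2.1) (iv i.1 i.2.2) (φ (i.1 + 1)) (w (i.1 + 1)) (b (i.1 + 1))
    (fun x hx y hy => hb i.1 hk _ hn _ hm x hx y hy)
    (A := e * 2 ^ i.1) (B := col * 2 ^ i.1) (by positivity)
    (fun x hx => hφ i.1 hk _ hn _ hm x hx) (ω i.1)
    (fun x hx y hy => hw i.1 hk _ hn _ hm x hx y hy) (fun y hy => hω i.1 hk _ hn _ hm y hy)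
  have h4 : (4 : ℝ) ^ i.1 = 2 ^ i.1 * 2 ^ i.1 := by
    rw [← mul_pow]
    norm_num
  have h2 : (0 : ℝ) < 2 ^ i.1 := by positivity
  rw [h4]
  refine (mul_le_mul_of_nonneg_left (mul_le_mul_of_nonneg_left h1 (by positivity))
    (by positivity)).trans (le_of_eq ?_)
  field_simp

variable {Λ : ℝ} {a : ℤ × ℤ → ℝ} {K : ℕ} {F : ℕ → Pt → ℝ} {v : ℤ → ℤ → κ → ℝ} {R S : ℤ}

/-- **Own energies of the slot on `D` at exact `x0`**: `D` has columns at most `col` in the alive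
squares, only the line energies of `F` in the second variable. -/
theorem ownK_D {n : ℕ} {e cP col : ℝ} {Q : ℕ → Pt → Prop} (he : 0 ≤ e) (hcol0 : 0 ≤ col)
    (h : BSl n e cP F Q) (hK : K ≤ n) (D : ℤ → ℤ → Prop)
    (hv : ∀ x ∈ iv K R, ∀ z ∈ iv K S, v x z ⬝ᵥ v x z ≤ 1)
    (hD : ∀ x ∈ iv K R, ∀ z ∈ iv K S, ¬ D x z → v x z = 0)
    (hcol : ∀ k, 1 ≤ k → k ≤ K → ∀ x ∈ iv K R, ∀ z ∈ iv K S, ¬ sst Λ a K k x z →
      ∑ w ∈ iv k (ix k x), (if D w z then (1 : ℝ) else 0) ≤ col * 2 ^ k)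
    (x0 : ℤ) (Q' : ℕ → ℤ → ℤ → Prop) :
    ownK K R S Q' (fun k x z => fC v (kF Λ a K F) x0 k z x) ≤
      e * (2 * col) * pwrK K R S Q' (fun k x z => fC v (kF Λ a K F) x0 k z x) := by
  refine ownK_col (fun k x z => F k (x0, x, z))
    (fun k x z => if k = 0 ∨ sst Λ a K k x z then 0 else v x z)
    (fun k x z => if sst Λ a K (k + 1) x z then 0 else if D x z then 1 else 0) he ?_ ?_ ?_ ?_
  · intro k _ i _ j _ x _ y _
    unfold fC kF
    by_cases h1 : k + 1 = 0 ∨ sst Λ a K (k + 1) x y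
    · simp
    · simp only [h1, if_false]
  · intro k hk i _ j _ x _
    exact h.l2 k (by omega) j x0 x
  · intro k hk i hi j hj x hx y hy
    have hxR := root_mem hk.le hi hx
    have hyS := root_mem hk.le hj hy
    by_cases h1 : sst Λ a K (k + 1) x y
    · simp [h1]
    · rw [if_neg h1, if_neg (by simp [h1])]
      by_cases h2 : D x y
      · rw [if_pos h2]
        exact hv x hxR y hyS
      · rw [if_neg h2, hD x hxR y hyS h2]
        simp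
  · intro k hk i hi j hj y hy
    have hyS := root_mem hk.le hj hy
    by_cases h1 : ∃ x ∈ iv k i, ¬ sst Λ a K (k + 1) x y
    · obtain ⟨x, hx, h2⟩ := h1
      have h3 := hcol (k + 1) (by omega) (by omega) x (root_mem hk.le hi hx) y hyS h2
      have hsub : iv k i ⊆ iv (k + 1) (ix (k + 1) x) := by
        intro w hw
        rw [mem_iv] at hx hw ⊢
        rw [show k + 1 = k + 1 from rfl, ← ix_ix k 1 w, ← ix_ix k 1 x, hw, hx]
      refine (sum_le_sum fun w _ => ?_).trans ((sum_le_sum_of_subset_of_nonneg hsub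
        fun w _ _ => ?_).trans (h3.trans (le_of_eq (by rw [pow_succ]; ring))))
      · split_ifs <;> norm_num
      · split_ifs <;> norm_num
    · push Not at h1
      rw [sum_eq_zero fun x hx => if_pos (h1 x hx)]
      positivity

/-- **The slot `C` on `D` as a family.** -/
theorem famK_D {n : ℕ} {e cP s col : ℝ} {Q : ℕ → Pt → Prop} (hΛ : 1 ≤ Λ) (he : 0 ≤ e)
    (hcP : 0 ≤ cP) (hcol0 : 0 ≤ col) (h : BSl n e cP F Q) (hK : K ≤ n) {x1 x3 : ℤ}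
    (hs : A2 K a x1 x3 ≤ s) (D : ℤ → ℤ → Prop)
    (ha : ∀ x ∈ iv K (ix K x1), ∀ z ∈ iv K (ix K x3),
      0 ≤ a (x, z) ∧ a (x, z) ≤ 1 ∧ v x z ⬝ᵥ v x z ≤ a (x, z) ^ 2)
    (hD : ∀ x ∈ iv K (ix K x1), ∀ z ∈ iv K (ix K x3), ¬ D x z → v x z = 0)
    (hcol : ∀ k, 1 ≤ k → k ≤ K → ∀ x ∈ iv K (ix K x1), ∀ z ∈ iv K (ix K x3),
      ¬ sst Λ a K k x z → ∑ w ∈ iv k (ix k x), (if D w z then (1 : ℝ) else 0) ≤ col * 2 ^ k)
    (t : ℤ) :
    FamK K (ix K x1) (ix K x3) (iv K t) (fun x0 => Qth Λ a K Q x0)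
      (fun x0 k x z => fC v (kF Λ a K F) x0 k z x) (cP + 2)
      (8 * Λ * (cP + 2) * e ^ 2 * col * s * 8 ^ K)
      (4 * Λ * (cP + 2) * e * s * 8 ^ K) := by
  have h1 := famK_C hΛ he hcP h hK (fun x hx z hz => ⟨(ha x hx z hz).1, (ha x hx z hz).2.2⟩) t
  have hp : ∑ x0 ∈ iv K t, pwrK K (ix K x1) (ix K x3) (Qth Λ a K Q x0)
      (fun k x z => fC v (kF Λ a K F) x0 k z x) ≤ 4 * Λ * (cP + 2) * e * s * 8 ^ K :=
    h1.pow.trans (by gcongr)
  exact {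
    path := h1.path
    zero := h1.zero
    pack := h1.pack
    own := by
      refine (sum_le_sum fun x0 _ => ownK_D he hcol0 h hK D (fun x hx z hz => ?_) hD hcol x0
        (Qth Λ a K Q x0)).trans ?_
      · have h2 := ha x hx z hz
        nlinarith [h2.1, h2.2.1, h2.2.2]
      · rw [← mul_sum]
        refine (mul_le_mul_of_nonneg_left hp (by positivity)).trans (le_of_eq ?_)
        ring
    pow := hp }

/-- **The part of the slot `C` of class data on `D`**, in the letters of `H205.NS_nf3_le`: own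
energies `8 Λ (cP + 2) ez² col s`, the stops are those of the gauge `U.2.1`. -/
theorem famK_D_Cls {n : ℕ} {ez cP s r P col : ℝ} {U : PL.H315.Tri} {g : ℤ → ℤ → ℝ}
    {u v : ℤ → ℤ → κ → ℝ} {F2 : ℕ → Pt → ℝ} {x : Pt} (hΛ : 1 ≤ Λ) (hcP : 0 ≤ cP)
    (hcol0 : 0 ≤ col) (h : ES n ez cP F2) (hK : K ≤ n) (hc : H305.Cls K x s r P U g u v)
    (D : ℤ → ℤ → Prop)
    (hcol : ∀ k, 1 ≤ k → k ≤ K → ∀ w ∈ iv K (cx K x).1, ∀ z ∈ iv K (cx K x).2.2,
      ¬ sst Λ U.2.1 K k w z → ∑ w' ∈ iv k (ix k w), (if D w' z then (1 : ℝ) else 0) ≤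
        col * 2 ^ k) :
    ∃ Q : ℕ → Pt → Prop, ∀ t : ℤ,
    FamK K (cx K x).1 (cx K x).2.2 (iv K t) (fun x0 => Qth Λ U.2.1 K Q x0)
      (fun x0 k w z => fC (fun w z => if D w z then v w z else 0) (kF Λ U.2.1 K F2) x0 k z w)
      (cP + 2) (8 * Λ * (cP + 2) * ez ^ 2 * col * s * 8 ^ K)
      (4 * Λ * (cP + 2) * ez * s * 8 ^ K) := by
  obtain ⟨he, Q, hB⟩ := h
  refine ⟨Q, fun t => ?_⟩
  refine famK_D hΛ he hcP hcol0 hB hK hc.U_v2 D ?_ ?_ hcol t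
  · intro w hw z hz
    rw [← H769.iv_pt] at hw hz
    have h1 := hc.U_v w hw z hz
    refine ⟨h1.1, h1.2, ?_⟩
    split_ifs
    · exact hc.v_le w hw z hz
    · simp only [zero_dotProduct]
      exact sq_nonneg _
  · intro w _ z _ h1
    exact if_neg h1

end

end Vale.Agent.P141.H194
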