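import Vale.Agent.P141.H677.SlotR
import Vale.Agent.P141.H841.SlotB
import Vale.Agent.P141.H415.S3n

/-!
# P141, line (A): the products of one slot, class data

* `q2_signed`, `q2_blind` : the number `q2` with any weights, summed over the label points and the
  three roots;
* `pr` : the product of one scale.
-/

namespace Vale.Agent.P141.H194.Q2

open Finset Matrix
open Vale.Agent.P141.PL (Pt iv ix mem_iv ix_ix cx cb)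
open Vale.Agent.P141.H43 (nsq nsq_nonneg)
open Vale.Agent.P141.H48 (sst BSl)
open Vale.Agent.P141.H305 (Cls ClsM kapM)
open Vale.Agent.P141.H677 (KT GT MT kF rt)
open Vale.Agent.P141.H677.Sk (Slt FamA FamV av FDs lam1 SlotN Raw)
open Vale.Agent.P141.H841 (Th1 Th1_nonneg cJ uJ thH Mc hypN_slot av_cut cap_cut tr_Mc Mc_mulVec)
open Vale.Agent.P141.H64 (Qf NB HypN)

noncomputable section

open scoped Classical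

variable {ι : Type} [Fintype ι] [DecidableEq ι]

/-! ### One label point -/

section one

variable {Al : ℕ → Pt → Prop} {o : ℤ} {K : ℕ} {M : Pt} {l : ℝ} {u : ℤ → ℤ → ι → ℝ}
  {R : Slt ι} {κ E : ℝ} {s : ℤ → ℕ → ℤ → ℤ → ℝ}

/-- the product of one scale -/
def pr (R : Slt ι) (sh x1 : ℤ) (w : ι → ℝ) (k : ℕ) (x0 y : ℤ) : ℝ :=
  nsq ((av R sh x0 k y x1 - av R sh x0 (k + 1) y x1) *ᵥ (av R sh x0 (k + 1) y x1 *ᵥ w))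

theorem one_signed (hl : 0 < l) (ho : o = 1 ∨ o = -1) (hs1 : ∀ x1 k a b, |s x1 k a b| ≤ 1)
    (hs0 : ∀ x1 k a b,
      ((b, o - 2 - a - ix k x1 - b, ix k x1) : Pt) ∉ H677.sN Al o K M (2 ^ k * a) k →
      s x1 k a b = 0)
    (hR : ∀ x0 j z x1, R x0 j z x1 = H841.Rm (MT l (KT l u x1)) o x1 (s x1) K j x0 z)
    (hE : 0 ≤ E)
    (hen : ∀ (T : Finset ℤ) (z : ℤ), ∀ x1 ∈ iv K M.1, ∀ w,
      ∑ t ∈ T, ∑ x0 ∈ iv K t, nsq (R x0 0 z x1 *ᵥ w) ≤ 2 ^ K * (E * nsq w))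
    (hcap : ∀ x0, ∀ j ≤ K, ∀ z x1 w, nsq (R x0 j z x1 *ᵥ w) ≤ κ ^ 2 * nsq w)
    {x1 : ℤ} (hx1 : x1 ∈ iv K M.1) (T : ℤ) {W : ℕ → ℤ → ℤ → ℝ} {e : ℝ} (he : 0 ≤ e)
    (hW0 : ∀ k x0 y, 0 ≤ W k x0 y)
    (hW : ∀ k ≤ K, ∀ j y, ∑ x0 ∈ iv k j, W k x0 y ≤ e * 2 ^ k)
    {al : ℕ → ℤ → Prop} {v : ℤ → ι → ℝ} {V : ℝ}
    (hV0 : 0 ≤ V) (hV : ∀ k ≤ K, ∀ y, al k y → ∑ y' ∈ iv k (ix k y), nsq (v y') ≤ V * 2 ^ k)
    (hup : ∀ y ∈ iv K M.2.2, ∀ k < K, al k y → al (k + 1) y)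
    (hal : ∀ y ∈ iv K M.2.2, ∀ k ≤ K, ¬ al k y → ∀ x0, W k x0 y = 0) (L : ℕ) (sh : ℤ)
    {δ : ℝ} (hδ : 0 < δ) :
    ∑ y ∈ iv K M.2.2, ∑ k ∈ range K, ∑ x0 ∈ iv K T, W k x0 y * pr R sh x1 (v y) k x0 y ≤
      3 * 10 ^ 8 * e * (1 + (L : ℝ)) ^ 5 * (2 ^ K * E * ∑ y ∈ iv K M.2.2, nsq (v y)) +
        4608 * e * κ ^ 2 * (1 + (L : ℝ)) ^ 2 * (V * 4 ^ K * (Th1 l K M.2.1 u x1 / 2 ^ L)) +
        777600 * e * (1 + (L : ℝ)) ^ 6 * NB K L (∑ y ∈ iv K M.2.2, nsq (v y)) V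
          (Th1 l K M.2.1 u x1) (Th1 l K M.2.1 u x1) E δ := by
  obtain rfl : ‹DecidableEq ι› = fun a b => Classical.propDecidable (a = b) :=
    Subsingleton.elim _ _
  have h := hypN_slot hl ho hs1 hs0 hR hE hen hx1 T
  have h1 := H64.S3z (tr_Mc hl K M.2.1 u x1) (Mc_mulVec l K M.2.1 u x1) h (W := W) he hW0
    (fun k hk => hW k hk.le) (al := al) (v := v) hV0 hV (sq_nonneg κ)
    (fun y _ x0 p => cap_cut hs0 hR hcap x1 x0 p (v y)) hup (fun y hy k hk => hal y hy k hk.le)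
    L sh hδ
  refine le_trans (le_of_eq ?_) h1
  refine sum_congr rfl fun y _ => sum_congr rfl fun k _ => sum_congr rfl fun x0 _ => ?_
  unfold pr
  rw [av_cut hs0 hR, av_cut hs0 hR]

theorem one_blind (hl : 0 < l) (ho : o = 1 ∨ o = -1) (hs1 : ∀ x1 k a b, |s x1 k a b| ≤ 1)
    (hs0 : ∀ x1 k a b,
      ((b, o - 2 - a - ix k x1 - b, ix k x1) : Pt) ∉ H677.sN Al o K M (2 ^ k * a) k →
      s x1 k a b = 0)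
    (hR : ∀ x0 j z x1, R x0 j z x1 = H841.Rm (MT l (KT l u x1)) o x1 (s x1) K j x0 z)
    (hcap : ∀ x0, ∀ j ≤ K, ∀ z x1 w, nsq (R x0 j z x1 *ᵥ w) ≤ κ ^ 2 * nsq w)
    (x1 : ℤ) (T : ℤ) {W : ℕ → ℤ → ℤ → ℝ} {e : ℝ} (he : 0 ≤ e)
    (hW0 : ∀ k x0 y, 0 ≤ W k x0 y)
    (hW : ∀ k ≤ K, ∀ j y, ∑ x0 ∈ iv k j, W k x0 y ≤ e * 2 ^ k)
    {al : ℕ → ℤ → Prop} {v : ℤ → ι → ℝ} {V : ℝ}
    (hV0 : 0 ≤ V) (hV : ∀ k ≤ K, ∀ y, al k y → ∑ y' ∈ iv k (ix k y), nsq (v y') ≤ V * 2 ^ k)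
    (hup : ∀ y ∈ iv K M.2.2, ∀ k < K, al k y → al (k + 1) y)
    (hal : ∀ y ∈ iv K M.2.2, ∀ k ≤ K, ¬ al k y → ∀ x0, W k x0 y = 0) (L : ℕ) (sh : ℤ) :
    ∑ y ∈ iv K M.2.2, ∑ k ∈ range K, ∑ x0 ∈ iv K T, W k x0 y * pr R sh x1 (v y) k x0 y ≤
      e * (200000000 * (1 + (L : ℝ)) ^ 6 *
          (2 ^ K * ∑ y ∈ iv K M.2.2, Qf (cJ l K M.2.1) (uJ K M.2.1 u x1) (v y)) +
        102400 * (1 + (L : ℝ)) ^ 3 * (1 + κ ^ 2) * (((L : ℝ) + 2) ^ 2 + 2) / 2 ^ L *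
          (V * Th1 l K M.2.1 u x1 * 4 ^ K)) := by
  have h1 := H415.S3.S3a (Mx := Mc l K M.2.1 u x1) (o := o) (x1 := x1) (T := T) (M3 := M.2.2)
    (n := K) (s := s x1) (tr_Mc hl K M.2.1 u x1)
    (fun k m a => le_of_eq (by rw [Mc_mulVec])) (hs1 x1) ho
    (Q := Qf (cJ l K M.2.1) (uJ K M.2.1 u x1)) (H841.hX1 hl K u M.2.1 T x1 M.2.2)
    (W := W) he hW0 hW (θ := thH (Mc l K M.2.1 u x1)) (H841.thH_nonneg _) (H841.thH_le _)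
    (Θ := Th1 l K M.2.1 u x1) (H841.hTh1 hl K u M.2.1 T x1 M.2.2) (al := al) (v := v) hV0 hV hup
    hal L sh (sq_nonneg κ) (fun y _ x0 p => cap_cut hs0 hR hcap x1 x0 p (v y))
  refine le_trans (le_of_eq ?_) h1
  refine sum_congr rfl fun y _ => sum_congr rfl fun k _ => sum_congr rfl fun x0 _ => ?_
  unfold pr
  rw [av_cut hs0 hR, av_cut hs0 hR]

end one

/-! ### All label points and the three roots, class data -/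

section all

variable {Al : ℕ → Pt → Prop} {o : ℤ} {K : ℕ} {x : Pt} {l : ℝ} {u v : ℤ → ℤ → ι → ℝ}
  {R : Slt ι} {κ E : ℝ} {sg : ℤ → ℕ → ℤ → ℤ → ℝ} {s r P : ℝ} {U : PL.H315.Tri} {g : ℤ → ℤ → ℝ}

theorem q2_signed (C : Cls K x s r P U g u v) (hl : 0 < l) (ho : o = 1 ∨ o = -1)
    (hs1 : ∀ x1 k a b, |sg x1 k a b| ≤ 1)
    (hs0 : ∀ x1 k a b,
      ((b, o - 2 - a - ix k x1 - b, ix k x1) : Pt) ∉ H677.sN Al o K (cx K x) (2 ^ k * a) k →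
      sg x1 k a b = 0)
    (hR : ∀ x0 j z x1, R x0 j z x1 = H841.Rm (MT l (KT l u x1)) o x1 (sg x1) K j x0 z)
    (hE : 0 ≤ E)
    (hen : ∀ (T : Finset ℤ) (z : ℤ), ∀ x1 ∈ iv K (cx K x).1, ∀ w,
      ∑ t ∈ T, ∑ x0 ∈ iv K t, nsq (R x0 0 z x1 *ᵥ w) ≤ 2 ^ K * (E * nsq w))
    (hcap : ∀ x0, ∀ j ≤ K, ∀ z x1 w, nsq (R x0 j z x1 *ᵥ w) ≤ κ ^ 2 * nsq w)
    {w : ℤ → ℤ → ι → ℝ} (hw : ∀ x' z, w x' z ⬝ᵥ w x' z ≤ v x' z ⬝ᵥ v x' z)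
    {W : ℤ → ℕ → ℤ → ℤ → ℝ} {e : ℝ} (he : 0 ≤ e) (hW0 : ∀ x1 k x0 y, 0 ≤ W x1 k x0 y)
    (hW : ∀ x1, ∀ k ≤ K, ∀ j y, ∑ x0 ∈ iv k j, W x1 k x0 y ≤ e * 2 ^ k)
    {al : ℤ → ℕ → ℤ → Prop} {V : ℝ} (hV0 : 0 ≤ V)
    (hV : ∀ x1 ∈ iv K (cx K x).1, ∀ k ≤ K, ∀ y, al x1 k y →
      ∑ y' ∈ iv k (ix k y), nsq (w x1 y') ≤ V * 2 ^ k)
    (hup : ∀ x1, ∀ y ∈ iv K (cx K x).2.2, ∀ k < K, al x1 k y → al x1 (k + 1) y)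
    (hal : ∀ x1, ∀ y ∈ iv K (cx K x).2.2, ∀ k ≤ K, ¬ al x1 k y → ∀ x0, W x1 k x0 y = 0)
    {Θ : ℝ} (hΘ : ∀ x1 ∈ iv K (cx K x).1, Th1 l K (cx K x).2.1 u x1 ≤ Θ)
    (L : ℕ) (sh : ℤ) {δ : ℝ} (hδ : 0 < δ) :
    ∑ t ∈ rt (cx K x), ∑ x1 ∈ iv K (cx K x).1, ∑ y ∈ iv K (cx K x).2.2, ∑ k ∈ range K,
        ∑ x0 ∈ iv K t, W x1 k x0 y * pr R sh x1 (w x1 y) k x0 y ≤
      3 * (e * s * 8 ^ K * (3 * 10 ^ 8 * (1 + (L : ℝ)) ^ 5 * E +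
        4608 * κ ^ 2 * (1 + (L : ℝ)) ^ 2 * (V / (2 * l) / 2 ^ L) +
        777600 * (1 + (L : ℝ)) ^ 6 *
          (δ + V / (2 * l) * (E / δ + (1 + Θ / δ) / 2 ^ L)))) := by
  have one : ∀ t ∈ rt (cx K x), ∑ x1 ∈ iv K (cx K x).1, ∑ y ∈ iv K (cx K x).2.2, ∑ k ∈ range K,
        ∑ x0 ∈ iv K t, W x1 k x0 y * pr R sh x1 (w x1 y) k x0 y ≤
      e * s * 8 ^ K * (3 * 10 ^ 8 * (1 + (L : ℝ)) ^ 5 * E +
        4608 * κ ^ 2 * (1 + (L : ℝ)) ^ 2 * (V / (2 * l) / 2 ^ L) +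
        777600 * (1 + (L : ℝ)) ^ 6 *
          (δ + V / (2 * l) * (E / δ + (1 + Θ / δ) / 2 ^ L))) := by
    intro t _
    refine (sum_le_sum fun x1 hx1 => one_signed hl ho hs1 hs0 hR hE hen hcap hx1 t
      (W := W x1) he (hW0 x1) (hW x1) (al := al x1) (v := w x1) hV0 (hV x1 hx1) (hup x1)
      (hal x1) L sh hδ).trans ?_
    rw [sum_add_distrib, sum_add_distrib, ← mul_sum, ← mul_sum, ← mul_sum, ← mul_sum, ← mul_sum,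
      ← sum_div]
    have m1 := H841.mass_C C hw
    have m2 := H841.Th_sumC C hl
    have m3 := H841.NB_sum C hl hw hV0 hE hδ hΘ L
    have g1 := mul_le_mul_of_nonneg_left m1
      (by positivity : 0 ≤ 3 * 10 ^ 8 * e * (1 + (L : ℝ)) ^ 5 * (2 ^ K * E))
    have g2 := mul_le_mul_of_nonneg_left m2
      (by positivity : 0 ≤ 4608 * e * κ ^ 2 * (1 + (L : ℝ)) ^ 2 * (V * 4 ^ K / 2 ^ L))
    have g3 := mul_le_mul_of_nonneg_left m3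
      (by positivity : 0 ≤ 777600 * e * (1 + (L : ℝ)) ^ 6)
    have e8 : (8 : ℝ) ^ K = 2 ^ K * 4 ^ K := by rw [← mul_pow]; norm_num
    have e4 : (4 : ℝ) ^ K = 2 ^ K * 2 ^ K := by rw [← mul_pow]; norm_num
    have f1 : 3 * 10 ^ 8 * e * (1 + (L : ℝ)) ^ 5 * (2 ^ K * E) * (s * 4 ^ K) =
        e * s * 8 ^ K * (3 * 10 ^ 8 * (1 + (L : ℝ)) ^ 5 * E) := by rw [e8]; ring
    have f2 : 4608 * e * κ ^ 2 * (1 + (L : ℝ)) ^ 2 * (V * 4 ^ K / 2 ^ L) *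
        ((2 * l)⁻¹ * (s * 2 ^ K)) =
        e * s * 8 ^ K * (4608 * κ ^ 2 * (1 + (L : ℝ)) ^ 2 * (V / (2 * l) / 2 ^ L)) := by
      rw [e8, div_eq_mul_inv V]; ring
    have f3 : 777600 * e * (1 + (L : ℝ)) ^ 6 *
        (s * 8 ^ K * (δ + V / (2 * l) * (E / δ + (1 + Θ / δ) / 2 ^ L))) =
        e * s * 8 ^ K * (777600 * (1 + (L : ℝ)) ^ 6 *
          (δ + V / (2 * l) * (E / δ + (1 + Θ / δ) / 2 ^ L))) := by ring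
    rw [f1] at g1
    rw [f2] at g2
    rw [f3] at g3
    refine (add_le_add (add_le_add (le_trans (le_of_eq (by ring)) g1)
      (le_trans (le_of_eq (by ring)) g2)) g3).trans (le_of_eq (by ring))
  refine (sum_le_sum one).trans (le_of_eq ?_)
  rw [sum_const, nsmul_eq_mul, H58.card_rt]

theorem q2_blind (C : Cls K x s r P U g u v) (hP : 0 ≤ P) (hl : 0 < l)
    (ho : o = 1 ∨ o = -1) (hs1 : ∀ x1 k a b, |sg x1 k a b| ≤ 1)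
    (hs0 : ∀ x1 k a b,
      ((b, o - 2 - a - ix k x1 - b, ix k x1) : Pt) ∉ H677.sN Al o K (cx K x) (2 ^ k * a) k →
      sg x1 k a b = 0)
    (hR : ∀ x0 j z x1, R x0 j z x1 = H841.Rm (MT l (KT l u x1)) o x1 (sg x1) K j x0 z)
    (hcap : ∀ x0, ∀ j ≤ K, ∀ z x1 w, nsq (R x0 j z x1 *ᵥ w) ≤ κ ^ 2 * nsq w)
    {w : ℤ → ℤ → ι → ℝ} (hw : ∀ x' z, w x' z ⬝ᵥ w x' z ≤ v x' z ⬝ᵥ v x' z)
    {W : ℤ → ℕ → ℤ → ℤ → ℝ} {e : ℝ} (he : 0 ≤ e) (hW0 : ∀ x1 k x0 y, 0 ≤ W x1 k x0 y)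
    (hW : ∀ x1, ∀ k ≤ K, ∀ j y, ∑ x0 ∈ iv k j, W x1 k x0 y ≤ e * 2 ^ k)
    {al : ℤ → ℕ → ℤ → Prop} {V : ℝ} (hV0 : 0 ≤ V)
    (hV : ∀ x1 ∈ iv K (cx K x).1, ∀ k ≤ K, ∀ y, al x1 k y →
      ∑ y' ∈ iv k (ix k y), nsq (w x1 y') ≤ V * 2 ^ k)
    (hup : ∀ x1, ∀ y ∈ iv K (cx K x).2.2, ∀ k < K, al x1 k y → al x1 (k + 1) y)
    (hal : ∀ x1, ∀ y ∈ iv K (cx K x).2.2, ∀ k ≤ K, ¬ al x1 k y → ∀ x0, W x1 k x0 y = 0)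
    (L : ℕ) (sh : ℤ) :
    ∑ t ∈ rt (cx K x), ∑ x1 ∈ iv K (cx K x).1, ∑ y ∈ iv K (cx K x).2.2, ∑ k ∈ range K,
        ∑ x0 ∈ iv K t, W x1 k x0 y * pr R sh x1 (w x1 y) k x0 y ≤
      3 * (e * s * 8 ^ K * (200000000 * (1 + (L : ℝ)) ^ 6 * (P / (2 * l)) +
        102400 * (1 + (L : ℝ)) ^ 3 * (1 + κ ^ 2) * (((L : ℝ) + 2) ^ 2 + 2) / 2 ^ L *
          (V / (2 * l)))) := by
  have one : ∀ t ∈ rt (cx K x), ∑ x1 ∈ iv K (cx K x).1, ∑ y ∈ iv K (cx K x).2.2, ∑ k ∈ range K,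
        ∑ x0 ∈ iv K t, W x1 k x0 y * pr R sh x1 (w x1 y) k x0 y ≤
      e * s * 8 ^ K * (200000000 * (1 + (L : ℝ)) ^ 6 * (P / (2 * l)) +
        102400 * (1 + (L : ℝ)) ^ 3 * (1 + κ ^ 2) * (((L : ℝ) + 2) ^ 2 + 2) / 2 ^ L *
          (V / (2 * l))) := by
    intro t _
    refine (sum_le_sum fun x1 hx1 => one_blind hl ho hs1 hs0 hR hcap x1 t
      (W := W x1) he (hW0 x1) (hW x1) (al := al x1) (v := w x1) hV0 (hV x1 hx1) (hup x1)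
      (hal x1) L sh).trans ?_
    have m1 := H841.Q_sumC C hl hP hw
    have m2 := H841.Th_sumC C hl
    have e8 : (8 : ℝ) ^ K = 2 ^ K * 4 ^ K := by rw [← mul_pow]; norm_num
    have g1 := mul_le_mul_of_nonneg_left m1
      (by positivity : 0 ≤ e * (200000000 * (1 + (L : ℝ)) ^ 6 * 2 ^ K))
    have g2 := mul_le_mul_of_nonneg_left m2
      (by positivity : 0 ≤ e * (102400 * (1 + (L : ℝ)) ^ 3 * (1 + κ ^ 2) *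
        (((L : ℝ) + 2) ^ 2 + 2) / 2 ^ L * (V * 4 ^ K)))
    have f0 : ∑ x1 ∈ iv K (cx K x).1, e * (200000000 * (1 + (L : ℝ)) ^ 6 *
          (2 ^ K * ∑ y ∈ iv K (cx K x).2.2,
            Qf (cJ l K (cx K x).2.1) (uJ K (cx K x).2.1 u x1) (w x1 y)) +
        102400 * (1 + (L : ℝ)) ^ 3 * (1 + κ ^ 2) * (((L : ℝ) + 2) ^ 2 + 2) / 2 ^ L *
          (V * Th1 l K (cx K x).2.1 u x1 * 4 ^ K)) =
        e * (200000000 * (1 + (L : ℝ)) ^ 6 * 2 ^ K) * (∑ x1 ∈ iv K (cx K x).1,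
          ∑ y ∈ iv K (cx K x).2.2,
            Qf (cJ l K (cx K x).2.1) (uJ K (cx K x).2.1 u x1) (w x1 y)) +
        e * (102400 * (1 + (L : ℝ)) ^ 3 * (1 + κ ^ 2) *
          (((L : ℝ) + 2) ^ 2 + 2) / 2 ^ L * (V * 4 ^ K)) *
          ∑ x1 ∈ iv K (cx K x).1, Th1 l K (cx K x).2.1 u x1 := by
      rw [mul_sum, mul_sum, ← sum_add_distrib]
      refine sum_congr rfl fun x1 _ => ?_
      ring
    rw [f0]
    refine (add_le_add g1 g2).trans (le_of_eq ?_)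
    rw [e8, div_eq_mul_inv P, div_eq_mul_inv V]
    ring
  refine (sum_le_sum one).trans (le_of_eq ?_)
  rw [sum_const, nsmul_eq_mul, H58.card_rt]

end all

end

end Vale.Agent.P141.H194.Q2
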