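import Vale.Agent.P141.H194.Q2
import Vale.Agent.P141.H627.LagQ
import Vale.Agent.P141.H677.RawC
import Vale.Agent.P141.H822.ZCr0

/-!
# P141, line (A): the fields `q2` and `q2L` of the numbers of one slot

* `raw_any` : the raw record of the products with any weights;
* `al1`, `wq` : live scales and weights of the killed input of time `k + 1`;
* `fld_q2 : RawField FQ2`, `fld_q2L : RawField FQ2L`.
-/

namespace Vale.Agent.P141.H194.Q2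

open Finset Matrix
open Vale.Agent.P141.PL (Pt iv ix mem_iv ix_ix cx cb)
open Vale.Agent.P141.H43 (nsq nsq_nonneg)
open Vale.Agent.P141.H48 (sst BSl)
open Vale.Agent.P141.H305 (Cls ClsM kapM)
open Vale.Agent.P141.H677 (KT GT MT kF rt)
open Vale.Agent.P141.H677.Sk
open Vale.Agent.P141.H841 (Th1 alF fibF upF v'_le av_cut)
open Vale.Agent.P141.H627 (reord WL WL_nonneg WL_cell WL_al Dq q2L_le)

noncomputable section

open scoped Classical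

variable {ι : Type} [Fintype ι] [DecidableEq ι]

section num

/-- the signed number against the raw shape -/
theorem num_signed {q : H401.Num} {s r κ E v0 Θ : ℝ} (hL1 : 1 ≤ q.L) (hy : 0 < q.t / r)
    (hE : 0 ≤ E) (hκ : 1 ≤ κ) (hv0 : 0 ≤ v0)
    (hv : v0 ≤ (q.t / r) ^ (-(12 : ℝ))) (hvΘ : v0 * Θ ≤ (q.t / r) ^ (-(12 : ℝ)))
    (L : ℕ) {δ : ℝ} (hδ : 0 < δ) :
    3 * (3 * 10 ^ 8 * (1 + (L : ℝ)) ^ 5 * E + 4608 * κ ^ 2 * (1 + (L : ℝ)) ^ 2 * (v0 / 2 ^ L) +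
        777600 * (1 + (L : ℝ)) ^ 6 * (δ + v0 * (E / δ + (1 + Θ / δ) / 2 ^ L))) ≤
      10 ^ 9 * ((1 + (L : ℝ)) ^ 6 * (q.L * δ + (q.t / r) ^ (-(12 : ℝ)) * E / δ + q.L * E +
        (1 + κ) ^ 2 * (q.t / r) ^ (-(12 : ℝ)) * (1 + 1 / δ) / 2 ^ L)) := by
  set Y : ℝ := (q.t / r) ^ (-(12 : ℝ)) with hY
  have hY0 : 0 < Y := Real.rpow_pos_of_pos hy _
  have hL : (0 : ℝ) ≤ L := Nat.cast_nonneg L
  set a : ℝ := 1 + (L : ℝ) with ha
  have ha1 : 1 ≤ a := by linarith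
  have a5 : a ^ 5 ≤ a ^ 6 := pow_le_pow_right₀ ha1 (by norm_num)
  have a2 : a ^ 2 ≤ a ^ 6 := pow_le_pow_right₀ ha1 (by norm_num)
  have a6 : 0 < a ^ 6 := by positivity
  have p2 : (0 : ℝ) < 2 ^ L := by positivity
  have k1 : κ ^ 2 ≤ (1 + κ) ^ 2 := by nlinarith
  have k2 : 1 ≤ (1 + κ) ^ 2 := by nlinarith
  -- the five terms
  have t1 : 3 * (3 * 10 ^ 8 * a ^ 5 * E) ≤ 10 ^ 9 * (a ^ 6 * (q.L * E)) := by
    have h1 : a ^ 5 * E ≤ a ^ 6 * E := mul_le_mul_of_nonneg_right a5 hE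
    have h2 : a ^ 6 * E ≤ a ^ 6 * (q.L * E) :=
      mul_le_mul_of_nonneg_left (le_mul_of_one_le_left hE hL1) a6.le
    have h3 : 0 ≤ a ^ 6 * (q.L * E) := by positivity
    linarith
  have t2 : 3 * (777600 * a ^ 6 * δ) ≤ 10 ^ 9 * (a ^ 6 * (q.L * δ)) := by
    have h2 : a ^ 6 * δ ≤ a ^ 6 * (q.L * δ) :=
      mul_le_mul_of_nonneg_left (le_mul_of_one_le_left hδ.le hL1) a6.le
    have h3 : 0 ≤ a ^ 6 * (q.L * δ) := by positivity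
    linarith
  have t3 : 3 * (777600 * a ^ 6 * (v0 * (E / δ))) ≤ 10 ^ 9 * (a ^ 6 * (Y * E / δ)) := by
    have h1 : v0 * (E / δ) ≤ Y * (E / δ) := mul_le_mul_of_nonneg_right hv (by positivity)
    have h2 : a ^ 6 * (v0 * (E / δ)) ≤ a ^ 6 * (Y * (E / δ)) :=
      mul_le_mul_of_nonneg_left h1 a6.le
    have h3 : 0 ≤ a ^ 6 * (Y * (E / δ)) := by positivity
    rw [mul_div_assoc]
    linarith
  have t4 : 3 * (4608 * κ ^ 2 * a ^ 2 * (v0 / 2 ^ L)) +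
      3 * (777600 * a ^ 6 * (v0 * ((1 + Θ / δ) / 2 ^ L))) ≤
      10 ^ 9 * (a ^ 6 * ((1 + κ) ^ 2 * Y * (1 + 1 / δ) / 2 ^ L)) := by
    have h1 : κ ^ 2 * a ^ 2 * v0 ≤ a ^ 6 * ((1 + κ) ^ 2 * Y * (1 + 1 / δ)) := by
      calc κ ^ 2 * a ^ 2 * v0 ≤ (1 + κ) ^ 2 * a ^ 6 * Y :=
            mul_le_mul (mul_le_mul k1 a2 (by positivity) (by positivity)) hv hv0 (by positivity)
        _ = a ^ 6 * ((1 + κ) ^ 2 * Y * 1) := by ring
        _ ≤ _ := by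
            have h5 : (1 : ℝ) ≤ 1 + 1 / δ := by
              have : 0 < 1 / δ := by positivity
              linarith
            gcongr
    have h2 : a ^ 6 * (v0 * (1 + Θ / δ)) ≤ a ^ 6 * ((1 + κ) ^ 2 * Y * (1 + 1 / δ)) := by
      refine mul_le_mul_of_nonneg_left ?_ a6.le
      have h3 : v0 * (1 + Θ / δ) = v0 + v0 * Θ / δ := by ring
      have h4 : v0 * Θ / δ ≤ Y / δ := div_le_div_of_nonneg_right hvΘ hδ.le
      have h5 : v0 * (1 + Θ / δ) ≤ Y * (1 + 1 / δ) := by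
        rw [h3]
        have : Y * (1 + 1 / δ) = Y + Y / δ := by ring
        linarith
      refine h5.trans ?_
      have h6 : 0 ≤ Y * (1 + 1 / δ) := by positivity
      calc Y * (1 + 1 / δ) ≤ (1 + κ) ^ 2 * (Y * (1 + 1 / δ)) := le_mul_of_one_le_left h6 k2
        _ = _ := by ring
    have h7 : 0 ≤ a ^ 6 * ((1 + κ) ^ 2 * Y * (1 + 1 / δ)) := by positivity
    calc 3 * (4608 * κ ^ 2 * a ^ 2 * (v0 / 2 ^ L)) +
          3 * (777600 * a ^ 6 * (v0 * ((1 + Θ / δ) / 2 ^ L)))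
        = (13824 * (κ ^ 2 * a ^ 2 * v0) + 2332800 * (a ^ 6 * (v0 * (1 + Θ / δ)))) / 2 ^ L := by
          ring
      _ ≤ (10 ^ 9 * (a ^ 6 * ((1 + κ) ^ 2 * Y * (1 + 1 / δ)))) / 2 ^ L :=
          div_le_div_of_nonneg_right (by linarith) p2.le
      _ = _ := by ring
  calc _ = 3 * (3 * 10 ^ 8 * a ^ 5 * E) + 3 * (777600 * a ^ 6 * δ) +
        3 * (777600 * a ^ 6 * (v0 * (E / δ))) + (3 * (4608 * κ ^ 2 * a ^ 2 * (v0 / 2 ^ L)) +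
        3 * (777600 * a ^ 6 * (v0 * ((1 + Θ / δ) / 2 ^ L)))) := by ring
    _ ≤ 10 ^ 9 * (a ^ 6 * (q.L * E)) + 10 ^ 9 * (a ^ 6 * (q.L * δ)) +
        10 ^ 9 * (a ^ 6 * (Y * E / δ)) +
        10 ^ 9 * (a ^ 6 * ((1 + κ) ^ 2 * Y * (1 + 1 / δ) / 2 ^ L)) :=
        add_le_add (add_le_add (add_le_add t1 t2) t3) t4
    _ = _ := by ring

/-- the blind number against the raw shape -/
theorem num_blind {q : H401.Num} {r κ v0 p0 : ℝ} (hκ : 1 ≤ κ) (hv0 : 0 ≤ v0)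
    (hy : 0 < q.t / r) (hv : v0 ≤ (q.t / r) ^ (-(12 : ℝ))) (hp0 : 0 ≤ p0)
    (hp : 2 * p0 ≤ q.t ^ (-q.c) * q.L * (q.t / r) ^ q.e0) (L : ℕ) :
    3 * (200000000 * (1 + (L : ℝ)) ^ 6 * p0 +
        102400 * (1 + (L : ℝ)) ^ 3 * (1 + κ ^ 2) * (((L : ℝ) + 2) ^ 2 + 2) / 2 ^ L * v0) ≤
      10 ^ 9 * ((1 + (L : ℝ)) ^ 6 * (q.t ^ (-q.c) * q.L * (q.t / r) ^ q.e0 +
        (1 + κ) ^ 2 * (q.t / r) ^ (-(12 : ℝ)) / 2 ^ L)) := by
  set Y : ℝ := (q.t / r) ^ (-(12 : ℝ)) with hY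
  have hY0 : 0 < Y := Real.rpow_pos_of_pos hy _
  have hL : (0 : ℝ) ≤ L := Nat.cast_nonneg L
  set a : ℝ := 1 + (L : ℝ) with ha
  have ha1 : 1 ≤ a := by linarith
  have a5 : a ^ 5 ≤ a ^ 6 := pow_le_pow_right₀ ha1 (by norm_num)
  have a6 : 0 < a ^ 6 := by positivity
  have p2 : (0 : ℝ) < 2 ^ L := by positivity
  have k1 : 1 + κ ^ 2 ≤ (1 + κ) ^ 2 := by nlinarith
  have c3 : (((L : ℝ) + 2) ^ 2 + 2) ≤ 6 * a ^ 2 := by rw [ha]; nlinarith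
  have t1 : 3 * (200000000 * a ^ 6 * p0) ≤
      10 ^ 9 * (a ^ 6 * (q.t ^ (-q.c) * q.L * (q.t / r) ^ q.e0)) := by
    have h1 := mul_le_mul_of_nonneg_left hp a6.le
    have h2 : 0 ≤ a ^ 6 * p0 := by positivity
    linarith
  have t2 : 3 * (102400 * a ^ 3 * (1 + κ ^ 2) * (((L : ℝ) + 2) ^ 2 + 2) / 2 ^ L * v0) ≤
      10 ^ 9 * (a ^ 6 * ((1 + κ) ^ 2 * Y / 2 ^ L)) := by
    have h1 : a ^ 3 * (1 + κ ^ 2) * (((L : ℝ) + 2) ^ 2 + 2) * v0 ≤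
        a ^ 3 * (1 + κ) ^ 2 * (6 * a ^ 2) * Y :=
      mul_le_mul (mul_le_mul (mul_le_mul_of_nonneg_left k1 (by positivity)) c3 (by positivity)
        (by positivity)) hv hv0 (by positivity)
    have h2 : a ^ 3 * (1 + κ) ^ 2 * (6 * a ^ 2) * Y ≤ 6 * (a ^ 6 * ((1 + κ) ^ 2 * Y)) := by
      have h3 : a ^ 3 * (1 + κ) ^ 2 * (6 * a ^ 2) * Y = 6 * (a ^ 5 * ((1 + κ) ^ 2 * Y)) := by ring
      rw [h3]
      have h4 := mul_le_mul_of_nonneg_right a5 (by positivity : 0 ≤ (1 + κ) ^ 2 * Y)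
      linarith
    have h7 : 0 ≤ a ^ 6 * ((1 + κ) ^ 2 * Y) := by positivity
    calc 3 * (102400 * a ^ 3 * (1 + κ ^ 2) * (((L : ℝ) + 2) ^ 2 + 2) / 2 ^ L * v0)
        = 307200 * (a ^ 3 * (1 + κ ^ 2) * (((L : ℝ) + 2) ^ 2 + 2) * v0) / 2 ^ L := by ring
      _ ≤ 10 ^ 9 * (a ^ 6 * ((1 + κ) ^ 2 * Y)) / 2 ^ L :=
          div_le_div_of_nonneg_right (by linarith) p2.le
      _ = _ := by ring
  calc _ = 3 * (200000000 * a ^ 6 * p0) +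
        3 * (102400 * a ^ 3 * (1 + κ ^ 2) * (((L : ℝ) + 2) ^ 2 + 2) / 2 ^ L * v0) := by ring
    _ ≤ _ := add_le_add t1 t2
    _ = _ := by ring

end num

section data

variable {q : H401.Num} {n : ℕ} {ez : ℝ} {F1 F2 F3 : ℕ → Pt → ℝ} {o : ℤ} {K : ℕ} {x : Pt}
  {s r : ℝ} {U : PL.H315.Tri} {g : ℤ → ℤ → ℝ} {u v : ℤ → ℤ → ι → ℝ} {A : FamA} {b C : FamV ι}
  {R : Slt ι} {κ E : ℝ} {Q1 Q2 Q3 : ℕ → Pt → Prop} {v' : ℤ → ℤ → ι → ℝ}

/-- **The products with any weights, raw record.** -/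
theorem raw_any (S : SDat q n ez F1 F2 F3 o K x s r U g u v A b C R κ E)
    (D : FDs q n ez F1 F2 F3 K x s r U g u v A b C Q1 Q2 Q3 v')
    {W : ℤ → ℕ → ℤ → ℤ → ℝ} (hW0 : ∀ x1 k x0 y, 0 ≤ W x1 k x0 y)
    (hW : ∀ x1, ∀ k ≤ K, ∀ j y, ∑ x0 ∈ iv k j, W x1 k x0 y ≤ ez * 2 ^ k)
    {al : ℤ → ℕ → ℤ → Prop}
    (hV : ∀ x1 ∈ iv K (cx K x).1, ∀ k ≤ K, ∀ y, al x1 k y →
      ∑ y' ∈ iv k (ix k y), nsq (v' x1 y') ≤ (2 * lam1 q s r) * 2 ^ k)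
    (hup : ∀ x1, ∀ y ∈ iv K (cx K x).2.2, ∀ k < K, al x1 k y → al x1 (k + 1) y)
    (hal : ∀ x1, ∀ y ∈ iv K (cx K x).2.2, ∀ k ≤ K, ¬ al x1 k y → ∀ x0, W x1 k x0 y = 0)
    (sh : ℤ) :
    Raw 6 12 12 q.L (q.t ^ (-q.c)) (q.t / r) q.e0 κ E (10 ^ 9 * (ez * s * 8 ^ K))
      (∑ t ∈ rt (cx K x), ∑ x1 ∈ iv K (cx K x).1, ∑ y ∈ iv K (cx K x).2.2, ∑ k ∈ range K,
        ∑ x0 ∈ iv K t, W x1 k x0 y * pr R sh x1 (v' x1 y) k x0 y) := by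
  obtain ⟨sg, hs1, hs0, hR⟩ := S.slt.sgn
  have ht := S.t0
  have hr0 : 0 < r := by linarith [S.r1]
  have hl : 0 < q.lam s r := H401.Num.lam_pos ht S.s0 S.r1
  have hez : 0 ≤ ez := S.hF2.1
  have hs : 0 ≤ s := S.s0.le
  have hy : 0 < q.t / r := div_pos ht hr0
  have hy1 : q.t / r ≤ 1 := by
    rw [div_le_one hr0]
    linarith [S.t1, S.r1]
  have hl1 : 0 ≤ lam1 q s r := by
    unfold lam1
    have h1 : 0 < q.t ^ (-8 : ℝ) := Real.rpow_pos_of_pos ht _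
    have h2 : 0 < r ^ (8 : ℝ) := Real.rpow_pos_of_pos hr0 _
    positivity
  have hP0 : 0 ≤ q.L * q.t ^ (2 - q.c) * √s := by
    have h1 : 0 < q.t ^ (2 - q.c) := Real.rpow_pos_of_pos ht _
    have h2 : 0 ≤ q.L := by linarith [S.L1]
    positivity
  have hD0 : 0 ≤ ez * s * 8 ^ K := by positivity
  have hΘ : ∀ x1 ∈ iv K (cx K x).1, Th1 (q.lam s r) K (cx K x).2.1 u x1 ≤ (r / q.t) ^ 2 / 2 :=
    H841.Th_le S.cls ht hl (lam_row ht S.t1 S.e00 S.s0 S.r1 S.e01)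
  have ev : 2 * lam1 q s r / (2 * q.lam s r) = lam1 q s r * (q.lam s r)⁻¹ := by
    rw [mul_div_mul_left _ _ (by norm_num : (2 : ℝ) ≠ 0), div_eq_mul_inv]
  have v1 : lam1 q s r * (q.lam s r)⁻¹ ≤ (q.t / r) ^ (-(10 : ℝ)) :=
    H822.ZCr.lam1_div ht S.t1 S.s0 S.r1 S.e00.le
  have v0 : 0 ≤ lam1 q s r * (q.lam s r)⁻¹ := by positivity
  have v2 : (q.t / r) ^ (-(10 : ℝ)) ≤ (q.t / r) ^ (-(12 : ℝ)) :=
    Real.rpow_le_rpow_of_exponent_ge hy hy1 (by norm_num)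
  have v3 : lam1 q s r * (q.lam s r)⁻¹ * ((r / q.t) ^ 2 / 2) ≤ (q.t / r) ^ (-(12 : ℝ)) := by
    have e1 : (r / q.t) ^ 2 = (q.t / r) ^ (-(2 : ℝ)) := by
      rw [Real.rpow_neg hy.le, ← inv_div q.t r, inv_pow]
      norm_num
    have e2 : (q.t / r) ^ (-(12 : ℝ)) = (q.t / r) ^ (-(10 : ℝ)) * (q.t / r) ^ (-(2 : ℝ)) := by
      rw [← Real.rpow_add hy]
      norm_num
    have h0 : 0 < (q.t / r) ^ (-(2 : ℝ)) := Real.rpow_pos_of_pos hy _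
    rw [e1, e2]
    refine mul_le_mul v1 (by linarith) (by linarith) (Real.rpow_nonneg hy.le _)
  refine ⟨fun L => ?_, fun L δ hδ => ?_⟩
  · have h1 := q2_blind S.cls.toCls hP0 hl S.ho hs1 hs0 hR S.slt.cap (v'_le D) hez hW0 hW
      (by positivity : 0 ≤ 2 * lam1 q s r) hV hup hal L sh
    rw [ev, m_eq ht S.s0 S.r1] at h1
    refine h1.trans ?_
    have h2 := num_blind (q := q) (r := r) (κ := κ) (p0 := q.L / 2 * (q.t ^ (-q.c) *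
      (q.t / r) ^ q.e0)) S.κ1 v0 hy (v1.trans v2)
      (by
        have := Real.rpow_nonneg ht.le (-q.c)
        have := Real.rpow_nonneg hy.le q.e0
        have : 0 ≤ q.L := by linarith [S.L1]
        positivity) (le_of_eq (by ring)) L
    have h3 := mul_le_mul_of_nonneg_left h2 hD0
    refine le_trans (le_of_eq (by ring)) (h3.trans (le_of_eq (by ring)))
  · have h1 := q2_signed S.cls.toCls hl S.ho hs1 hs0 hR S.E0.le S.slt.en S.slt.cap (v'_le D)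
      hez hW0 hW (by positivity : 0 ≤ 2 * lam1 q s r) hV hup hal hΘ L sh hδ
    rw [ev] at h1
    refine h1.trans ?_
    have h2 := num_signed (q := q) (s := s) (r := r) (κ := κ) (E := E) S.L1 hy S.E0.le S.κ1 v0
      (v1.trans v2) v3 L hδ
    have h3 := mul_le_mul_of_nonneg_left h2 hD0
    refine le_trans (le_of_eq (by ring)) (h3.trans (le_of_eq (by ring)))

/-- the live scales of the input of time `k + 1` -/
def al1 (q : H401.Num) (K : ℕ) (x : Pt) (U : PL.H315.Tri) (x1 : ℤ) (k : ℕ) (y : ℤ) : Prop :=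
  ix K y = ix K x.2.2 ∧ ¬ sst q.Lm U.2.1 K (min (k + 1) K) x1 y

/-- the weights of the input of time `k + 1` -/
def wq (q : H401.Num) (K : ℕ) (U : PL.H315.Tri) (F2 : ℕ → Pt → ℝ) (x1 : ℤ) (k : ℕ)
    (x0 y : ℤ) : ℝ :=
  if k < K then kF q.Lm U.2.1 K F2 (k + 1) (x0, x1, y) ^ 2 else 0

theorem wq_nonneg (q : H401.Num) (K : ℕ) (U : PL.H315.Tri) (F2 : ℕ → Pt → ℝ) (x1 : ℤ) (k : ℕ)
    (x0 y : ℤ) : 0 ≤ wq q K U F2 x1 k x0 y := by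
  unfold wq
  split_ifs
  · exact sq_nonneg _
  · exact le_rfl

theorem wq_cell (B : BSl n ez q.cP F2 Q2) (hez : 0 ≤ ez) (hK : K ≤ n) (x1 : ℤ) :
    ∀ k ≤ K, ∀ j y, ∑ x0 ∈ iv k j, wq q K U F2 x1 k x0 y ≤ ez * 2 ^ k := by
  intro k _ j y
  unfold wq
  split_ifs with h
  · exact H58.kF_line B hez (by omega) j x1 y
  · rw [sum_const_zero]
    positivity

theorem al1_fib (D : FDs q n ez F1 F2 F3 K x s r U g u v A b C Q1 Q2 Q3 v')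
    (hl1 : 0 ≤ lam1 q s r) : ∀ x1 ∈ iv K (cx K x).1, ∀ k ≤ K, ∀ y, al1 q K x U x1 k y →
      ∑ y' ∈ iv k (ix k y), nsq (v' x1 y') ≤ (2 * lam1 q s r) * 2 ^ k := by
  intro x1 hx1 k hk y hy
  rcases hk.lt_or_eq with h | h
  · have e1 : min (k + 1) K = k + 1 := min_eq_left h
    have h1 := hy.2
    rw [e1] at h1
    have h2 := D.fib (k + 1) h x1 hx1 y (mem_iv.2 hy.1) h1
    have h3 : ∑ y' ∈ iv k (ix k y), nsq (v' x1 y') ≤
        ∑ y' ∈ iv (k + 1) (ix (k + 1) y), v' x1 y' ⬝ᵥ v' x1 y' := by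
      refine sum_le_sum_of_subset_of_nonneg (fun y' h4 => ?_) fun y' _ _ => nsq_nonneg _
      rw [mem_iv] at h4 ⊢
      rw [← ix_ix k 1, ← ix_ix k 1, h4]
    refine h3.trans (h2.trans (le_of_eq ?_))
    rw [pow_succ]
    ring
  · subst h
    have h1 := hy.2
    rw [min_eq_right (Nat.le_succ k)] at h1
    have h2 := D.fib k le_rfl x1 hx1 y (mem_iv.2 hy.1) h1
    refine h2.trans ?_
    have : 0 ≤ lam1 q s r * 2 ^ k := by positivity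
    linarith

theorem al1_up (q : H401.Num) (K : ℕ) (x : Pt) (U : PL.H315.Tri) : ∀ x1 : ℤ,
    ∀ y ∈ iv K (cx K x).2.2, ∀ k < K, al1 q K x U x1 k y → al1 q K x U x1 (k + 1) y := by
  intro x1 y _ k hk h
  refine ⟨h.1, fun h2 => h.2 ?_⟩
  rw [min_eq_left (by omega : k + 1 ≤ K)]
  rcases Nat.lt_or_ge (k + 1) K with h3 | h3
  · rw [min_eq_left (by omega : k + 1 + 1 ≤ K)] at h2
    exact (H444.FD.stP_sst _ _ K).mono (k + 1) h3 _ _ h2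
  · have e1 : K = k + 1 := by omega
    rw [min_eq_right (by omega : K ≤ k + 1 + 1), e1] at h2
    rw [← e1]
    rw [← e1] at h2
    exact h2

theorem al1_dead (q : H401.Num) (K : ℕ) (x : Pt) (U : PL.H315.Tri) (F2 : ℕ → Pt → ℝ) :
    ∀ x1 : ℤ, ∀ y ∈ iv K (cx K x).2.2, ∀ k ≤ K, ¬ al1 q K x U x1 k y →
      ∀ x0, wq q K U F2 x1 k x0 y = 0 := by
  intro x1 y hy k _ h x0
  unfold wq
  split_ifs with h1
  · have h2 : sst q.Lm U.2.1 K (k + 1) x1 y := by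
      by_contra h3
      refine h ⟨mem_iv.1 hy, ?_⟩
      rwa [min_eq_left (by omega : k + 1 ≤ K)]
    rw [H58.kF_dead F2 h2]
    norm_num
  · rfl

end data

/-- **The field `q2`.** -/
theorem fldC_q2 : RawFieldC FQ2 := by
  refine ⟨6, 12, 12, fun p => p.L, fun _ => 10 ^ 9, ?_⟩
  intro ι _ _ q n ez F1 F2 F3 o K x s r U g u v A b C R κ E S h hh
  refine ⟨by positivity, ?_⟩
  obtain ⟨Q1, Q2, Q3, v', D⟩ := S.dat
  have hez : 0 ≤ ez := S.hF2.1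
  have hr0 : 0 < r := by linarith [S.r1]
  have hl1 : 0 ≤ lam1 q s r := by
    unfold lam1
    have h1 : 0 < q.t ^ (-8 : ℝ) := Real.rpow_pos_of_pos S.t0 _
    have h2 : 0 < r ^ (8 : ℝ) := Real.rpow_pos_of_pos hr0 _
    positivity
  have H := raw_any S D (W := wq q K U F2) (wq_nonneg q K U F2) (wq_cell D.B2 hez S.hK)
    (al := al1 q K x U) (al1_fib D hl1) (al1_up q K x U) (al1_dead q K x U F2) h.2.2
  have e : ∑ t ∈ rt (cx K x), ∑ x0 ∈ iv K t, ∑ k ∈ range K, ∑ x1 ∈ iv K (cx K x).1,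
      ∑ z ∈ iv K (cx K x).2.2, nsq ((av R h.2.2 x0 k z x1 - av R h.2.2 x0 (k + 1) z x1) *ᵥ
        (av R h.2.2 x0 (k + 1) z x1 *ᵥ C x0 (k + 1) z x1)) =
      ∑ t ∈ rt (cx K x), ∑ x1 ∈ iv K (cx K x).1, ∑ y ∈ iv K (cx K x).2.2, ∑ k ∈ range K,
        ∑ x0 ∈ iv K t, wq q K U F2 x1 k x0 y * pr R h.2.2 x1 (v' x1 y) k x0 y := by
    refine sum_congr rfl fun t _ => ?_
    rw [reord (iv K t) (iv K (cx K x).1) (iv K (cx K x).2.2) (range K) fun x0 k x1 z =>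
      nsq ((av R h.2.2 x0 k z x1 - av R h.2.2 x0 (k + 1) z x1) *ᵥ
        (av R h.2.2 x0 (k + 1) z x1 *ᵥ C x0 (k + 1) z x1))]
    refine sum_congr rfl fun x1 _ => sum_congr rfl fun z _ => sum_congr rfl fun k hk =>
      sum_congr rfl fun x0 _ => ?_
    rw [D.C_eq, mulVec_smul, mulVec_smul, H841.nsq_smul]
    unfold wq pr
    rw [if_pos (mem_range.1 hk)]
  change Raw _ _ _ _ _ _ _ _ _ _ (∑ t ∈ rt (cx K x), ∑ x0 ∈ iv K t, ∑ k ∈ range K,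
    ∑ x1 ∈ iv K (cx K x).1, ∑ z ∈ iv K (cx K x).2.2,
      nsq ((av R h.2.2 x0 k z x1 - av R h.2.2 x0 (k + 1) z x1) *ᵥ
        (av R h.2.2 x0 (k + 1) z x1 *ᵥ C x0 (k + 1) z x1)))
  rw [e]
  exact H

/-- **The field `q2L`.** -/
theorem fldC_q2L : RawFieldC FQ2L := by
  refine ⟨6, 12, 12, fun p => p.L, fun _ => 10 ^ 9, ?_⟩
  intro ι _ _ q n ez F1 F2 F3 o K x s r U g u v A b C R κ E S h hh
  refine ⟨by positivity, fun l => ?_⟩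
  obtain ⟨Q1, Q2, Q3, v', D⟩ := S.dat
  obtain ⟨sg, hs1, hs0, hR⟩ := S.slt.sgn
  have hez : 0 ≤ ez := S.hF2.1
  have hr0 : 0 < r := by linarith [S.r1]
  have hl1 : 0 ≤ lam1 q s r := by
    unfold lam1
    have h1 : 0 < q.t ^ (-8 : ℝ) := Real.rpow_pos_of_pos S.t0 _
    have h2 : 0 < r ^ (8 : ℝ) := Real.rpow_pos_of_pos hr0 _
    positivity
  have H := raw_any S D (W := WL q.Lm U.2.1 K F2 l) (WL_nonneg q.Lm U.2.1 K F2 l)
    (fun x1 => WL_cell D.B2 hez S.hK l x1) (al := alF q K x U)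
    (fun x1 hx1 k hk y hy => (fibF D hx1 k hk y hy).trans (by
      have : 0 ≤ lam1 q s r * 2 ^ k := by positivity
      linarith)) (fun x1 => upF q K x U x1) (fun x1 => WL_al q.Lm F2 l x1 rfl) h.2.2
  have h2 := q2L_le (l0 := q.lam s r) D hs0 hR h.2.2 l
  have e : ∀ t x1 z k x0, nsq (Dq (q.lam s r) o K (cx K x).2.1 u sg h.2.2 x1 k x0 z *ᵥ
      (H841.Rs (H841.Mc (q.lam s r) K (cx K x).2.1 u x1) o x1 (sg x1) K h.2.2 (k + 1) x0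
        (ix (k + 1) (z - h.2.2)) *ᵥ v' x1 z)) = pr R h.2.2 x1 (v' x1 z) k x0 z + 0 * t := by
    intro t x1 z k x0
    unfold pr
    rw [av_cut hs0 hR, av_cut hs0 hR, zero_mul, add_zero]
    rfl
  have h3 : ∑ t ∈ rt (cx K x), ∑ x1 ∈ iv K (cx K x).1, ∑ z ∈ iv K (cx K x).2.2,
      ∑ k ∈ range K, ∑ x0 ∈ iv K t, WL q.Lm U.2.1 K F2 l x1 k x0 z *
        nsq (Dq (q.lam s r) o K (cx K x).2.1 u sg h.2.2 x1 k x0 z *ᵥ
          (H841.Rs (H841.Mc (q.lam s r) K (cx K x).2.1 u x1) o x1 (sg x1) K h.2.2 (k + 1) x0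
            (ix (k + 1) (z - h.2.2)) *ᵥ v' x1 z)) =
      ∑ t ∈ rt (cx K x), ∑ x1 ∈ iv K (cx K x).1, ∑ z ∈ iv K (cx K x).2.2,
      ∑ k ∈ range K, ∑ x0 ∈ iv K t, WL q.Lm U.2.1 K F2 l x1 k x0 z *
        pr R h.2.2 x1 (v' x1 z) k x0 z :=
    sum_congr rfl fun t _ => sum_congr rfl fun x1 _ => sum_congr rfl fun z _ =>
      sum_congr rfl fun k _ => sum_congr rfl fun x0 _ => by
        rw [e 0 x1 z k x0, mul_zero, add_zero]
  rw [h3] at h2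
  exact ⟨fun L => h2.trans (H.blind L), fun L δ hδ => h2.trans (H.signed L δ hδ)⟩

/-- **The field `q2`, final form.** -/
theorem fld_q2 : RawField FQ2 := fldC_q2.toR mono_FQ2

/-- **The field `q2L`, final form.** -/
theorem fld_q2L : RawField FQ2L := fldC_q2L.toR mono_FQ2L

end

end Vale.Agent.P141.H194.Q2
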